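import Crest.Agent.X212.Ins30.Mod
import Crest.Agent.X212.Ins26.Defs
import Crest.Agent.X212.M.Geq
import Crest.Agent.X212.Cut54.Wld
import Crest.Agent.X212.Mon62.NkI

/-!
# X212 / Ins30 (helper30): the leaf COUNT-NAT
-/

set_option autoImplicit false
set_option linter.unusedSectionVars false
noncomputable section
open scoped Manifold ContDiff Topology Matrix
open MeasureTheory Set Function Filter

namespace Crest.Agent.X212.Ins30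
open An M Eqv71 Cnt93 Nd18 Ins26
open Line51 (Ln rl)

variable {Wi Wi' : Type} {X X' : Mf 4} {A A₂ κ lam : Type} [Fintype A] [Fintype A₂] [Fintype κ]
  [Fintype lam] [DecidableEq lam] {M : Mark X A κ} {M' : Mark X' A₂ κ} {W : World M} {W' : World M'}
  {N : ML M lam} {N' : ML M' lam} {Λ : Lns W N} {Λ' : Lns W' N'} {A' A'' h h' : Type} [Fintype A']
  [DecidableEq A'] [Fintype A''] [DecidableEq A''] [Fintype h] [Fintype h'] {r n : ℕ}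
  {J : Job Wi Λ A' h r n} {σ : Cel A'} {J' : Job Wi' Λ' A'' h' r n} {σ' : Cel A''} {e : Wi ↪ Wi'}
  {s : A' → ℝ}

theorem nc0 (x : X.M) : x ∉ M.sys.cores M.c0.1 := by simp [Sys.cores, Mark.c0]

theorem unc0 (i : h) : i ∈ J.unc M.c0 := disjoint_left.2 fun x _ => nc0 x

theorem cyl0 : cylW M.c0 = ∅ := eq_empty_of_forall_notMem fun _ h => h.1

theorem ov0 (hs : s ∈ ub J σ) : J.Ov σ M.c0 s := ⟨J.cl_dom hs.1, hs.2⟩

theorem src0 (x : X.M) : x ∈ (W.φ M.c0).source := (W.mem_src _).2 (nc0 x)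

theorem tgt0 (z : (W.Z M.c0).M) : z ∈ (W.φ M.c0).target := W.tgt _ ▸ fun _ h => h.elim

theorem surj0 (z : (W.Z M.c0).M) : ∃ x, W.φ M.c0 x = z := ⟨_, (W.φ M.c0).right_inv (tgt0 z)⟩

/-- **the count of a cell is the number of points of a moduli space with cuts** -/
theorem z_eq_mod (hJ : J.OK) (hσ : σ ∈ J.𝒦) (q : Wi →₀ ℝ) : J.z q σ = Nat.card (ModC (J.cut M.c0)
    (J.B M.c0) (ub J σ) (J.G M.c0) (J.τ M.c0 q) (J.σc M.c0 q) J.k) := by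
  have := Cyl58.caps_compact W.toCaps (c := M.c0) fun _ h => h.elim
  refine card_quot_eq (fun y x => x.1 = (y.1.s, ⟨y.1.x, y.1.ψ⟩)) ?_ ?_
    (fun y => ⟨rfl, isoC_refl (Λ.B_ok _ _) (hJ.G_ok hσ y.2.1.ov) (ad0 y.2.1.sol.toAdm)⟩)
    (fun x => ⟨rfl, isoC_refl (Λ.B_ok _ _) (hJ.G_ok hσ (ov0 x.2.1)) (ad0 x.2.2.1.toAdm)⟩) ?_
  · rintro ⟨y, H, t⟩
    refine ⟨⟨(y.s, ⟨y.x, y.ψ⟩), ⟨H.cell, H.inf⟩, H.sol, ?_,
      fun i => H.cut i ((H.H_eq t.1).ge (unc0 i))⟩, rfl⟩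
    simpa [cyl0, t.1] using H.lev
  · rintro ⟨⟨s, x, ψ⟩, hs, H, k, f⟩
    refine ⟨⟨⟨s, x, J.unc M.c0, ψ, fun _ _ => ⟨⟨0, 0, 0, 0, 0⟩, 0, 0, 0⟩, 1, 0, 0, 0⟩,
      ⟨hs.1, hs.2, H, subset_rfl, fun i _ => f i, by simp, fun _ _ ha => ha.2.2.2.elim,
        fun _ ha => ha.1.elim, fun _ ha => ha.1.elim,
        int_kd (Λ.B_ok _ _) (hJ.G_ok hσ (ov0 hs)) (ad0 H.toAdm), ?_⟩, rfl, fun _ _ => rfl⟩, rfl⟩
    simpa [cyl0] using k
  · rintro y y' ⟨_, _⟩ ⟨_, _⟩ rfl rfl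
    exact and_congr_right' (exists₂_congr fun _ _ => and_congr_right'
      ⟨fun H i => H ⟨i, unc0 i⟩, fun H i => H i⟩)

/-- without necks the gradient terms vanish -/
theorem τ0_van (hJ : J.OK) (hσ : σ ∈ J.𝒦) (hn : NoNk J σ) (hs : s ∈ ub J σ) :
    VanA (J.B M.c0) (J.G M.c0 s) (J.τ0 M.c0 s) := vanA_dsum fun i hi c hc => by
  rcases hn s hs i.1 with k | k
  · have := Mon62.q1_smul (n := n) (J.K M.c0 i.1 i.2 _ hi)
      (Mp86.bumps_of_tame _ (hJ.tame hσ (ov0 hs)).choose_spec) hc.conn (hJ.xs i.1).2.sm 0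
    rw [k]
    exact ⟨fun x => ⟨(this x).1.trans (zero_smul _ _), (this x).2.trans (zero_smul _ _)⟩,
      fun _ => rfl⟩
  · rw [(k.1.smul _).q1]
    exact ⟨fun _ => ⟨rfl, rfl⟩, fun _ => rfl⟩

theorem τw_eq (hn : NoNk J σ) (hs : s ∈ ub J σ) (w : Wi) :
    J.τw M.c0 s w = Ink3.τf J M.c0 s w := Ink3.τw_nn _ _ fun a => by
  rcases hn s hs a with k | k
  · rw [k, zero_smul]
  · rw [k.2, Pi.zero_apply, smul_zero]

variable {ψ : PartialDiffeomorph X.I X'.I X.M X'.M ∞} {w : X.M → Matrix lam lam ℂ}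
  {θ : (A' → ℝ) → A'' → ℝ} {η : h ≃ h'}

variable (J J' ψ w) in
/-- the isometry of the lines on the unbroken manifold -/
def uu (z : (W.Z M.c0).M) : Matrix lam lam ℂ :=
  tw J.m M.c0 J'.m M'.c0 ψ Λ Λ' w ((W.φ M.c0).symm z)

theorem uu_φ (x : X.M) : uu J J' ψ w (W.φ M.c0 x) = tw J.m M.c0 J'.m M'.c0 ψ Λ Λ' w x :=
  congrArg (tw J.m M.c0 J'.m M'.c0 ψ Λ Λ' w) ((W.φ M.c0).left_inv (src0 x))

variable (H : Cor0 J σ J' σ' e ψ w θ η)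
include H

theorem exists_Ψ : ∃ Ψ : PartialDiffeomorph (W.Z M.c0).I (W'.Z M'.c0).I (W.Z M.c0).M
    (W'.Z M'.c0).M ∞, Ψ.source = univ ∧ Ψ.target = univ ∧
    (∀ x, Ψ (W.φ M.c0 x) = W'.φ M'.c0 (ψ x)) ∧
    Orx52.Pos (W.Z M.c0).I (W'.Z M'.c0).I Ψ Ψ.source (W.o M.c0) (W'.o M'.c0) := by
  obtain ⟨Ψ, k1, k2, k3, -, k5⟩ := Cyl58.tr W.toCaps W'.toCaps (c := M.c0) (c' := M'.c0)
    (⟨ψ, .ofIsEmpty, .ofIsEmpty, nofun, nofun, nofun, nofun, nofun, nofun, nofun, H.src ▸ H.ori⟩ :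
      MId M M' Empty) isOpen_univ H.src.ge (fun x _ => nc0 x) (fun x _ => nc0 _) (J := ∅) nofun
  refine ⟨Ψ, k1.trans (eq_univ_of_forall fun z => ?_), k2.trans (eq_univ_of_forall fun z => ?_),
    fun x => k3 x trivial, k5⟩
  · obtain ⟨x, rfl⟩ := surj0 z
    exact .inl ⟨x, trivial, rfl⟩
  · obtain ⟨x, rfl⟩ := surj0 z
    exact .inl ⟨x, ⟨_, trivial, ψ.right_inv (H.tgt.ge trivial)⟩, rfl⟩

variable {Ψ : PartialDiffeomorph (W.Z M.c0).I (W'.Z M'.c0).I (W.Z M.c0).M (W'.Z M'.c0).M ∞}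
  (he : ∀ x, Ψ (W.φ M.c0 x) = W'.φ M'.c0 (ψ x)) (hs : s ∈ ub J σ)
include he hs

theorem sq0 : Sq (J.tp M.c0) (J'.tp M'.c0) univ ψ (fun x => rl (w x)) univ Ψ
    fun z => rl (uu J J' ψ w z) := sq_of _ _ fun z _ => by
  obtain ⟨x, rfl⟩ := surj0 z
  have a := (H.lin s hs).iso x trivial
  have b := (Λ.uni J.m M.c0).iso x (src0 x)
  have c := (Λ'.uni J'.m M'.c0).iso (ψ x) (src0 _)
  refine ⟨x, trivial, src0 x, rfl, src0 _, he x, ?_⟩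
  rw [uu_φ]
  refine Cut54.sq_rl a b c (b.symm.trans (a.trans c)) ?_
  rw [tw, Matrix.mul_assoc, b.src, Matrix.mul_assoc, a.idem]

theorem geq0 (hJ : J.OK) (hJ' : J'.OK) (hσ : σ ∈ J.𝒦) (hσ' : σ' ∈ J'.𝒦) (h1 : Ψ.source = univ)
    (hp : Orx52.Pos (W.Z M.c0).I (W'.Z M'.c0).I Ψ Ψ.source (W.o M.c0) (W'.o M'.c0)) :
    GEq (J.B M.c0) (J.G M.c0 s) (J'.B M'.c0) (J'.G M'.c0 (θ s)) Ψ.toOpenPartialHomeomorph
      (Met55.rotU (W.F J.m M.c0 (J.Θ s)).toPre (W'.F J'.m M'.c0 (J'.Θ (θ s))).toPre Ψ)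
      fun z => rl (uu J J' ψ w z) := by
  have o := ov0 hs
  have o' := ov0 (H.bij.mapsTo hs)
  have sm : ∀ x, ContMDiffAt X.I X'.I ∞ ψ x := fun x =>
    (Orx52.ldp ψ (H.src.ge trivial)).contMDiffAt
  refine geq_of Λ Λ' (hJ.memBr hσ o) (hJ.memO hσ o) (hJ'.memBr hσ' o') (hJ'.memO hσ' o') isOpen_univ
    (fun x _ => nc0 x) (fun x _ => nc0 _) (fun x _ => sm x) (h1 ▸ subset_univ _)
    (fun z _ => subset_closure (let ⟨x, k⟩ := surj0 z; ⟨x, trivial, k⟩)) (fun x _ => he x) hp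
    (fun x _ => H.met s hs x) (H.lin s hs) (fun x _ => uu_φ x) fun z _ => ?_
  exact Pj41.MSm.comp (f := (W.φ M.c0).symm) (sm_tw Λ Λ' (nc0 _) (nc0 _) (sm _)
    ((H.lin s hs).sm _ trivial)) (Met55.pd_ld' (tgt0 z)).contMDiffAt

variable (hJ : J.OK) (hJ' : J'.OK) (hσ : σ ∈ J.𝒦) (hσ' : σ' ∈ J'.𝒦)
  {Ψ' : (W'.Z M'.c0).M → (W.Z M.c0).M}
  {U : (W.Z M.c0).M → Option κ → Option κ → ℝ}
  (g : KT (J.B M.c0) (J.G M.c0 s) (J'.B M'.c0) (J'.G M'.c0 (θ s)) univ univ Ψ Ψ' U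
    fun z => rl (uu J J' ψ w z)) (q : Wi' →₀ ℝ)
include hJ hJ' hσ hσ' g

theorem τ_rel : PRel0 (J.B M.c0) (J.G M.c0 s) (J'.B M'.c0) (J'.G M'.c0 (θ s)) univ univ Ψ U
    (fun z => rl (uu J J' ψ w z)) (J.τ M.c0 (rs e q) s) (J'.τ M'.c0 q (θ s)) := by
  have hs' := H.bij.mapsTo hs
  have k : fsum (J'.τw M'.c0 (θ s)) q = fsum (fun v => J'.τw M'.c0 (θ s) (e v)) (rs e q) := by
    refine Ink3.pt_ext (fun c x => ?_) (fun c x => ?_) fun c x => ?_ <;> simp only [fsum] <;>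
      refine sum_rs e q fun v hv a => ?_ <;>
      simp [τw_eq H.nk' hs', Pt.smul, (H.off s hs v hv).1]
  refine ((τ0_van hJ hσ H.nk hs).rel (τ0_van hJ' hσ' H.nk' hs')).add
    (k ▸ prel0_fsum (fun v => ?_) _)
  obtain ⟨k1, k2⟩ := H.co s hs v
  rw [τw_eq H.nk hs, τw_eq H.nk' hs', Ink3.τf, Ink3.τf, k1]
  by_cases h0 : J.co v s = 0
  · rw [h0]
    exact prel0_zero (mapsTo_univ _ _) (fun _ _ _ => ⟨zero_smul _ _, zero_smul _ _⟩)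
      (fun _ _ _ => ⟨zero_smul _ _, zero_smul _ _⟩) (fun _ _ => by simp [Pt.smul])
      fun _ _ => by simp [Pt.smul]
  · exact (tm_rel0 g ((sq0 H he hs).tm (k2 h0)) (hJ.tw_in hσ (ov0 hs) h0).choose_spec
      (hJ'.tw_in hσ' (ov0 hs') (k1 ▸ h0)).choose_spec).smul _

theorem σc_rel (i : h) : PcRel0 (J.B M.c0) (J.G M.c0 s) (J'.B M'.c0) (J'.G M'.c0 (θ s)) univ univ Ψ U
    (fun z => rl (uu J J' ψ w z)) (J.σc M.c0 (rs e q) s i) (J'.σc M'.c0 q (θ s) (η i)) :=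
  fun {c c' u ζ} k ξ a => by
  have o := ov0 hs
  have o' := ov0 (H.bij.mapsTo hs)
  rw [Job.σc, Job.σc, sum_rs e q fun v hv a => by rw [(H.off s hs v hv).2, mul_zero, zero_smul]]
  simp only [Finsupp.sum, _root_.sum_apply, _root_.smul_apply, map_sum, map_smul]
  refine Finset.sum_congr rfl fun v _ => ?_
  obtain ⟨k1, k2⟩ := H.cc s hs i v
  rw [k1]
  by_cases h0 : J.cc i v s = 0
  · rw [h0, mul_zero, zero_smul, zero_smul]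
  · rw [k.tc g ξ (hJ.ct σ hσ s o.1 _ o.2 i (unc0 i)) (hJ'.ct σ' hσ' _ o'.1 _ o'.2 _ (unc0 _))
      ((sq0 H he hs).cut (H.ct i) fun x _ => ⟨trivial, (he x).symm⟩) ((sq0 H he hs).tc (k2 h0))
      (hJ.tc_in hσ o h0).choose_spec (hJ'.tc_in hσ' o' (k1 ▸ h0)).choose_spec a]

omit H he hs hJ hJ' hσ hσ' g in
/-- **COUNT-NAT** -/
theorem cnt : CntStmt κ lam := by
  intro Wi Wi' X X' A A₂ _ _ M M' W W' N N' Λ Λ' A' A'' h h' _ _ _ _ _ _ r n J σ J' σ' e hJ hJ' hσ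
    hσ' ⟨ψ, w, θ, η, H⟩ q
  obtain ⟨Ψ, h1, h2, he, hp⟩ := exists_Ψ (W := W) (W' := W') H
  have g := fun s hs => geq0 H he (s := s) hs hJ hJ' hσ hσ' h1 hp
  have G := fun s hs => hJ.G_ok hσ (ov0 (s := s) hs)
  have G' := fun s hs => hJ'.G_ok hσ' (ov0 (s := s) hs)
  have K := fun s hs => kt_of (kg_univ (g s hs) (Λ.B_ok _ _) (G s hs) (Λ'.B_ok _ _)
    (G' _ (H.bij.mapsTo hs)) h1 h2) isClosed_univ isClosed_univ (hJ.tame hσ (ov0 hs))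
    (hJ'.tame hσ' (ov0 (H.bij.mapsTo hs)))
  rw [z_eq_mod hJ hσ, z_eq_mod hJ' hσ', H.k]
  exact card_modC_eq H.bij η (Λ.B_ok _ _) (Λ'.B_ok _ _) G G' g h1 h2
    (fun s hs => (τ_rel H he hs hJ hJ' hσ hσ' (K s hs) q).rel)
    (fun s hs => (hJ.τ_nat hσ (ov0 hs) isClopen_univ _).rel)
    (fun s hs i => hJ.ct σ hσ s (ov0 hs).1 _ hs.2 i (unc0 i))
    (fun s hs i => hJ'.ct σ' hσ' s (ov0 hs).1 _ hs.2 i (unc0 i))
    (fun s hs i => (sq0 H he hs).cut (H.ct i) fun x _ => ⟨trivial, (he x).symm⟩)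
    (fun s hs i => σc_rel H he hs hJ hJ' hσ hσ' (K s hs) q i) _

end Crest.Agent.X212.Ins30
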