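import Crest.Agent.X212.M.Coef

/-!
# X212 / Ins30 (helper30): Stokes on chains of cells with lines; cells of `A ⊕ B`
-/

set_option autoImplicit false
set_option linter.unusedSectionVars false
noncomputable section
open Finset Function

namespace Crest.Agent.X212.Ins30
open M

variable {L A B : Type} [Fintype L] [DecidableEq L] [Fintype A] [DecidableEq A]

/-- the count over a chain -/
def tot (z c : L → Ch A) : ZMod 2 := ∑ i, (z i).pair (c i)

theorem tot_add (z c c' : L → Ch A) : tot z (c + c') = tot z c + tot z c' := by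
  simp only [tot, Pi.add_apply, Ch.pair_add, sum_add_distrib]

theorem add_tot (z z' c : L → Ch A) : tot (z + z') c = tot z c + tot z' c := by
  simp only [tot, Pi.add_apply, Ch.add_pair, sum_add_distrib]

theorem tot_congr {z z' c : L → Ch A} (h : ∀ i σ, c i σ ≠ 0 → z i σ = z' i σ) :
    tot z c = tot z' c := sum_congr rfl fun i _ => Ch.pair_congr (h i)

theorem tot_bd (z c : L → Ch A) : tot z (fun i => (c i).bdry) = tot (fun i => (z i).cob) c :=
  sum_congr rfl fun _ _ => Ch.pair_bdry _ _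

theorem tot_zero (z : L → Ch A) : tot z 0 = 0 := by simp [tot, Ch.pair]

/-- the faces at infinity of the chain `c` are empty or cancel in pairs -/
structure Cn0 (c : L → Ch A) (f : L → Finset A → A → ZMod 2) : Prop where
  ex : ∀ a, ∃ fl : L → L, (∀ i, fl (fl i) = i) ∧ ∀ i σ, a ∈ σ → c (fl i) σ = c i σ ∧
    (c i σ ≠ 0 → f i σ a = 0 ∨ fl i ≠ i ∧ f (fl i) σ a = f i σ a)

theorem Cn0.tot {c : L → Ch A} {f : L → Finset A → A → ZMod 2} (h : Cn0 c f) :
    tot (fun i σ => ∑ a ∈ σ, f i σ a) c = 0 := by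
  simp only [Ins30.tot, Ch.pair, mul_sum]
  rw [sum_comm]
  refine sum_eq_zero fun σ _ => ?_
  rw [sum_comm]
  refine sum_eq_zero fun a ha => ?_
  obtain ⟨fl, h1, h2⟩ := h.ex a
  refine sum_involution (fun i _ => fl i) (fun i _ => ?_) (fun i _ hi => ?_) (by simp)
    fun i _ => h1 i
  · rw [(h2 i σ ha).1]
    by_cases h0 : c i σ = 0
    · simp [h0]
    rcases (h2 i σ ha).2 h0 with k | k
    · rcases (h2 (fl i) σ ha).2 ((h2 i σ ha).1 ▸ h0) with k' | k'
      · simp [k, k']
      · rw [h1] at k'; rw [← k'.2, k]; simp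
    · rw [k.2]; exact CharTwo.add_self_eq_zero _
  · exact (((h2 i σ ha).2 (left_ne_zero_of_mul hi)).resolve_left (right_ne_zero_of_mul hi)).1

/-- pins are empty, lenses cancel -/
theorem cn0_of {c : L → Ch A} {f : L → Finset A → A → ZMod 2} {ls : Finset A} {fl : A → L → L}
    {sg : A → L → Bool} (inv : ∀ l ∈ ls, ∀ i, fl l (fl l i) = i)
    (hsg : ∀ l ∈ ls, ∀ i, sg l (fl l i) = !sg l i)
    (sym : ∀ l ∈ ls, ∀ i σ, l ∈ σ → c (fl l i) σ = c i σ)
    (h0 : ∀ i σ, c i σ ≠ 0 → ∀ a ∈ σ, a ∉ ls → f i σ a = 0)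
    (h1 : ∀ i σ, c i σ ≠ 0 → ∀ l ∈ σ, l ∈ ls → f (fl l i) σ l = f i σ l) : Cn0 c f := ⟨fun a => by
  by_cases ha : a ∈ ls
  · refine ⟨fl a, inv a ha, fun i σ k => ⟨sym a ha i σ k, fun k' => .inr ⟨fun e => ?_, h1 i σ k' a k ha⟩⟩⟩
    have := hsg a ha i
    rw [e] at this
    simp at this
  · exact ⟨id, fun _ => rfl, fun i σ k => ⟨rfl, fun k' => .inl (h0 i σ k' a k ha)⟩⟩⟩

/-- **Stokes** -/
theorem stk_alg {e z : L → Ch A} {f : L → Finset A → A → ZMod 2} (h : Cn0 e f)
    (hS : ∀ i σ, e i σ ≠ 0 → (z i).cob σ = ∑ a ∈ σ, f i σ a) : tot z (fun i => (e i).bdry) = 0 := by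
  rw [tot_bd, tot_congr hS, h.tot]

/-- **prisms** -/
theorem prism_alg {c z₀ z₁ z : L → Ch A} {f : L → Finset A → A → ZMod 2} (h : Cn0 c f)
    (hc : (fun i => (c i).bdry) = 0)
    (hS : ∀ i σ, c i σ ≠ 0 → (z i).cob σ + (z₀ i σ + z₁ i σ) = ∑ a ∈ σ, f i σ a) :
    tot z₀ c = tot z₁ c := by
  have h1 := (tot_congr (z := (fun i => (z i).cob) + (z₀ + z₁)) hS).trans h.tot
  rw [add_tot, add_tot, ← tot_bd, hc, tot_zero, zero_add] at h1
  exact CharTwo.add_eq_zero.1 h1

/-! ### cells -/

/-- the cell with the free walls `σ` and the soft part `β` -/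
def ce (σ : Finset A) (β : B → Option Bool) : A ⊕ B → Option Bool :=
  Sum.elim (fun a => if a ∈ σ then none else some false) β

@[simp] theorem ce_inr (σ : Finset A) (β : B → Option Bool) (b : B) : ce σ β (.inr b) = β b := rfl

theorem ce_inl (σ : Finset A) (β : B → Option Bool) (a : A) :
    ce σ β (.inl a) = if a ∈ σ then none else some false := rfl

@[simp] theorem ce_none {σ : Finset A} {β : B → Option Bool} {a : A} :
    ce σ β (.inl a) = none ↔ a ∈ σ := by simp [ce_inl]

variable [Fintype B] [DecidableEq B]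

theorem ce_erase (σ : Finset A) (β : B → Option Bool) (a : A) :
    update (ce σ β) (.inl a) (some false) = ce (σ.erase a) β := by
  ext1 (x | x)
  · by_cases h : x = a
    · subst h; simp [ce_inl]
    · simp [ce_inl, h]
  · simp

theorem ce_update (σ : Finset A) (β : B → Option Bool) (b : B) (v : Option Bool) :
    update (ce σ β) (.inr b) v = ce σ (update β b v) := by
  ext1 (x | x)
  · simp [ce_inl]
  · by_cases h : x = b
    · subst h; simp
    · simp [h]

theorem card_ce (σ : Finset A) (β : B → Option Bool) :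
    Finset.card {a | ce σ β a = none} = σ.card + Finset.card {b | β b = none} := by
  simp only [card_filter, Fintype.sum_sum_type, ce_none, ce_inr]
  congr 1
  simp

variable {R A₁ : Type} [AddCommMonoid R] {hd : A ⊕ B → Option A₁} {σ : Finset A}
  {β : B → Option Bool}

theorem sum_wa (h1 : ∀ a ∈ σ, (hd (.inl a)).isSome) (h2 : ∀ b, hd (.inr b) = none)
    (g : A ⊕ B → R) :
    ∑ a ∈ ({a | ce σ β a = none ∧ (hd a).isSome} : Finset (A ⊕ B)), g a = ∑ a ∈ σ, g (.inl a) := by
  rw [sum_filter, Fintype.sum_sum_type]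
  simp only [h2, ce_none]
  simp only [Option.isSome_none, Bool.false_eq_true, and_false, ite_false, sum_const_zero, add_zero]
  rw [← sum_filter]
  exact sum_congr (by ext a; simpa using h1 a) fun _ _ => rfl

theorem sum_wb (h1 : ∀ a ∈ σ, (hd (.inl a)).isSome) (h2 : ∀ b, hd (.inr b) = none)
    (g : (A ⊕ B → Option Bool) → R) :
    ∑ b ∈ ({b | ce σ β b.1 = none ∧ (b.2 → (hd b.1).isNone)} : Finset ((A ⊕ B) × Bool)),
      g (update (ce σ β) b.1 (some b.2)) = ∑ a ∈ σ, g (ce (σ.erase a) β) +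
      ∑ b with β b = none, (g (ce σ (update β b (some false))) + g (ce σ (update β b (some true)))) := by
  rw [sum_filter, Fintype.sum_prod_type, Fintype.sum_sum_type, sum_filter]
  congr 1
  · rw [← Fintype.sum_ite_mem σ]
    refine sum_congr rfl fun a _ => ?_
    by_cases h : a ∈ σ
    · have := h1 a h
      simp [h, ce_erase, Option.isNone_eq_false_iff.2 this]
    · simp [h]
  · refine sum_congr rfl fun b _ => ?_
    by_cases h : β b = none <;> simp [h, h2, ce_update, add_comm]

end Crest.Agent.X212.Ins30
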