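import Crest.Agent.X212.Ins26.Defs
import Crest.Agent.X212.Jb7.Ops
import Crest.Agent.X212.Jb7.Std
import Crest.Agent.X212.G75.Dat
import Crest.Agent.X212.Ins30.Alg

/-!
# X212 / Ins30 (helper30): INST, the leaf JOIN (the prism between two families)
-/

set_option autoImplicit false
set_option linter.unusedSectionVars false
noncomputable section
open scoped Manifold ContDiff Topology
open Set Function Filter

namespace Crest.Agent.X212.Ins30
open An M G75 Jb7 Wrd81 Ins26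
open Br55 (NC NS CN)
open Line51 (Ln rl)

variable {κ lam : Type} [Fintype κ] [Fintype lam] [DecidableEq lam] {Lm : LM κ lam} {S : Scene Lm}
  {j N : ℕ} {σ τ : Finset S.A} {o : Option Bool} {b p : Bool} {s : S.A ⊕ Unit → ℝ} {i : S.L}

/-! ### cells -/

/-- the soft coordinate is put at the end `b` -/
def gb (b : Bool) (s : S.A ⊕ Unit → ℝ) : S.A ⊕ Unit → ℝ := update s (.inr ()) (b01 b)

@[simp] theorem gb_inl (a : S.A) : gb b s (.inl a) = s (.inl a) := update_of_ne (by simp) _ _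

@[simp] theorem gb_inr (u : Unit) : gb b s (.inr u) = b01 b := update_self _ _ _

theorem gb_gb : gb b (gb p s) = gb b s := update_idem _ _ _

theorem gb_self (h : s ∈ Job.sp (cel σ (some b))) : gb b s = s :=
  update_eq_self_iff.2 (h _ b rfl).symm

theorem gb_sp (h : s ∈ Job.sp (cel σ o)) : gb b s ∈ Job.sp (cel σ (some b)) := by
  rintro (a | a) v e
  · exact (gb_inl a).trans (h _ v e)
  · rw [gb_inr, Option.some.inj e]

theorem gb_cl (h : s ∈ Job.cl (cel σ o)) : gb b s ∈ Job.cl (cel σ (some b)) :=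
  ⟨gb_sp h.1, by
    rintro (a | a)
    · rw [gb_inl]; exact h.2 _
    · cases b <;> simp [b01]⟩

theorem contDiff_gb : ContDiff ℝ ∞ (gb (S := S) b) := contDiff_pi.2 fun a => by
  rcases a with a | a
  · simpa only [gb_inl] using contDiff_apply ℝ ℝ (Sum.inl a : S.A ⊕ Unit)
  · simpa only [gb_inr] using contDiff_const

theorem sp_zero (h : s ∈ Job.sp (cel σ o)) {a : S.A} (ha : a ∉ σ) : s (.inl a) = 0 :=
  h _ false (if_neg ha)

theorem cel_inj {o' : Option Bool} (e : cel σ o = cel τ o') : σ = τ := Finset.ext fun a =>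
  (ce_none (β := fun _ : Unit => o)).symm.trans (by rw [show ce σ _ = _ from e]; exact ce_none)

theorem fc_inl (a : S.A) : update (cel σ o) (.inl a) (some false) = cel (σ.erase a) o :=
  ce_erase σ _ a

theorem fc_inr (v : Option Bool) : update (cel σ o) (.inr ()) v = cel σ v :=
  (ce_update σ _ () v).trans (congrArg _ (funext fun _ => update_self _ _ _))

variable {F P : Fam S j N} {T : ℝ}

theorem down (h : (F.job i).OK) (hσ : cel σ o ∈ F.𝒦 i) (e : τ ⊆ σ) : cel τ o ∈ F.𝒦 i := by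
  induction σ using Finset.strongInduction with
  | H σ ih =>
    rcases e.eq_or_ssubset with rfl | k
    · exact hσ
    obtain ⟨a, h1, h2⟩ := Finset.exists_of_ssubset k
    refine ih _ (Finset.erase_ssubset h1) (fc_inl a ▸ h.down _ hσ (.inl a, false) ?_)
      (Finset.subset_erase.2 ⟨e, h2⟩)
    exact Job.mem_wb.2 ⟨if_pos h1, by simp⟩

/-- the wall parameters off the frozen necks -/
theorem th_eq (hX : hard S P.X ⊆ hard S F.X) (hσ : ↑σ ⊆ hard S P.X) (h : s ∈ Job.sp (cel σ o))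
    {s' : S.A ⊕ Unit → ℝ} (e : ∀ a, s' (.inl a) = s (.inl a)) {a : S.A} (ha : a ∉ S.fz) :
    (((P.job i).Θ s').2 a : ℝ) = ((F.job i).Θ s).2 a := by
  by_cases k : a ∈ hard S P.X
  · exact (thS_H ha k).trans ((congrArg rho (e a)).trans (thS_H ha (hX k)).symm)
  refine (thS_out ha k).trans ?_
  by_cases k' : a ∈ hard S F.X
  · exact ((thS_H ha k').trans (rho_of_le (sp_zero h fun m => k (hσ m)).le)).symm
  · exact (thS_out ha k').symm

/-- the parameters of `P` are mapped to the end `b` of `F` -/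
theorem rep (hF : F.OK T) (hX : hard S P.X ⊆ hard S F.X) (hT : ∀ a ∈ S.fz, ∀ u, P.Tf a u < 1)
    (hK : ∀ σ' ∈ P.𝒦 i, ∃ τ o, σ' = cel τ o ∧ ↑τ ⊆ hard S P.X ∧ cel τ (some b) ∈ F.𝒦 i) :
    Rep ((P.sk i).job (j + 1 + N) N) (F.job i) (P.sk i).sh (F.sk i).sh (gb b) where
  sm := contDiff_gb
  dom σ' h := by
    obtain ⟨τ, o, rfl, h1, h2⟩ := hK σ' h
    refine ⟨_, h2, fun s hs => ⟨gb_sp hs.1, ?_⟩⟩
    rintro (a | a) k
    · rw [gb_inl]
      by_cases m : a ∈ τ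
      exacts [Sk.le_one hs (h1 m), (sp_zero hs.1 m).trans_le zero_le_one]
    · cases k
  hd a x h := by
    obtain ⟨h1, rfl⟩ := Sk.hd_eq.1 h
    exact ⟨.inl x, (Sk.hd_eq (S := F.sk i) (r := 0) (n := 0)).2 ⟨hX h1, rfl⟩, fun _ => gb_inl x⟩
  inf σ' h s hs := by
    obtain ⟨τ, o, rfl, h1, -⟩ := hK σ' h
    ext a
    by_cases ha : a ∈ S.fz
    · exact iff_of_false (fun k => (hT a ha _).ne ((thS_fz ha).symm.trans k))
        fun k => (hF.Tf a ha _).2.ne ((thS_fz ha).symm.trans k)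
    · exact (th_eq hX h1 (gb_sp hs.1) (fun a => (gb_inl a).symm) ha).congr_left
  nb := rfl
  ag _ _ s _ s' _ V h := by
    rintro (a | a) k
    · rw [gb_inl, gb_inl]
      by_cases m : a ∈ hard S P.X
      · refine h _ (.inr ((k.resolve_left fun k => k a (hX m) rfl).imp fun x k => ⟨k.1, ?_⟩))
        obtain rfl := Sum.inl.inj ((Sk.hd_eq (S := F.sk i) (r := 0) (n := 0) (a := .inl a)).1 k.2).2
        exact Sk.hd_eq.2 ⟨m, rfl⟩
      · exact h _ (.inl fun x hx e => m (Sum.inl.inj e ▸ hx))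
    · rw [gb_inr, gb_inr]

/-! ### the ends -/

theorem trn_p (N : ML S.M lam) (x : S.X.M) (a : Eu (lam ⊕ lam)) :
    trn (rl (N.p x)) (rl (N.p x) a) = trn (rl (N.p x)) a := by
  rw [← Line51.rl_ct, (N.ok.prj x trivial).herm, ← ContinuousLinearMap.comp_apply,
    ← Line51.rl_comp, (N.ok.prj x trivial).idem]

/-- **the end `p` of `P` is the end `b` of `F`** -/
theorem cor (hF : (F.job i).OK) (hσ : cel σ (some b) ∈ F.𝒦 i) (hX : hard S P.X ⊆ hard S F.X)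
    (h1 : ↑σ ⊆ hard S P.X) (hn : P.n₀ = F.n₀) (hT : ∀ a ∈ S.fz, P.Tf a (b01 p) = F.Tf a (b01 b))
    (hW : WId P.D.W F.D.W (.refl S.M) univ (P.uf (b01 p)) (F.uf (b01 b)))
    (hC : CId (P.D.Λ i) (F.D.Λ i) (.refl S.M) univ (S.N i).p (P.uf (b01 p)) (F.uf (b01 b)))
    {e : F.Wi ↪ P.Wi} (tw : ∀ v, (P.t i).tw (e v) = (F.t i).tw v)
    (tc : ∀ l v, (P.t i).tc l (e v) = (F.t i).tc l v)
    (co : ∀ s v, (P.t i).co (e v) (gb p s) = (F.t i).co v (gb b s))
    (cc : ∀ s l v, (P.t i).cc l (e v) (gb p s) = (F.t i).cc l v (gb b s))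
    (off : ∀ s, ∀ v ∉ range e, (P.t i).co v (gb p s) = 0 ∧ ∀ l, (P.t i).cc l v (gb p s) = 0) :
    Cor (F.job i) (cel σ (some b)) (P.job i) (cel σ (some p)) e := by
  have k : ∀ s ∈ Job.cl (cel σ (some b)),
      (P.job i).Θ (gb p s) = (P.uf (b01 p), ((F.job i).Θ s).2) ∧
      (F.job i).Θ s = (F.uf (b01 b), ((F.job i).Θ s).2) := fun s hs => by
    have e1 : s (.inr ()) = b01 b := hs.1 _ b rfl
    refine ⟨Prod.ext (congrArg P.uf (gb_inr ())) (funext fun a => ?_),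
      Prod.ext (congrArg F.uf e1) rfl⟩
    by_cases ha : a ∈ S.fz
    · exact (thS_fz ha).trans ((congrArg (P.Tf a) (gb_inr ())).trans ((hT a ha).trans
        ((congrArg (F.Tf a) e1).symm.trans (thS_fz (Tf := (F.sk i).Tf) ha).symm)))
    · exact th_eq hX h1 hs.1 gb_inl ha
  have r : ∀ s ∈ Job.cl (cel σ (some b)),
      (MId.refl S.M).Rel univ ((F.job i).Θ s).2 ((F.job i).Θ s).2 := fun s hs =>
    have := hF.par _ hσ s (Job.cl_dom _ hs)
    ⟨this, this, fun _ => rfl, fun a k => (k ⟨a, rfl⟩).elim, fun a k => (k ⟨a, rfl⟩).elim⟩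
  have q := trn_p (S.N i)
  refine ⟨(MId.refl S.M).ψ, (S.N i).p, gb p, .refl _, rfl, rfl, (MId.refl S.M).ori,
    ⟨fun s hs => ⟨gb_cl hs.1, by rw [(k s hs.1).1]; exact hs.2⟩, fun s hs s' hs' e => ?_,
      fun s hs => ⟨gb b s, ⟨gb_cl hs.1, ?_⟩, gb_gb.trans (gb_self hs.1.1)⟩⟩,
    fun s hs x => ?_, fun s hs => ⟨(LId.refl (S.N i)).uni, fun x _ => ?_⟩, congrArg (kz S i j) hn,
    fun l => ⟨subset_univ _, fun _ _ => rfl,
      List.forall₂_same.2 fun _ _ => ⟨fun _ _ => rfl, fun _ _ => rfl, fun _ _ => rfl⟩,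
      List.forall₂_same.2 fun _ _ => ⟨fun x _ => (q x _).symm, fun _ _ => rfl, fun _ _ => rfl⟩⟩,
    fun s hs v => ⟨(co s v).trans (congrArg _ (gb_self hs.1.1)), fun _ => ?_⟩,
    fun s hs l v => ⟨(cc s l v).trans (congrArg _ (gb_self hs.1.1)), fun _ => ?_⟩,
    fun s _ => off s, fun _ _ _ => .inr ⟨Ink3.nd0_nil, rfl⟩, fun _ _ _ => .inr ⟨Ink3.nd0_nil, rfl⟩⟩
  · rw [← gb_self hs.1.1, ← gb_self hs'.1.1, ← gb_gb (p := p), e, gb_gb]
  · have := (k _ (gb_cl (b := b) hs.1)).1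
    rw [gb_gb, gb_self hs.1.1] at this
    exact (congrArg (fun t => Sys.inf t.2) this).symm.trans hs.2
  · rw [(k s hs.1).1, (k s hs.1).2]
    exact co_id.2 (co_id.1 (hW _ _ (r s hs.1) x trivial (by simp [hs.2, Sys.cores]))).symm
  · have e : ∀ c : S.X.M → _, Line51.th S.X.I (S.N i).p x + Dr59.pm S.X.I S.X.I (MId.refl S.M).ψ c x =
        c x := fun c => by rw [th_p, zero_add]; exact congrFun (Dr59.pm_id c) x
    rw [(k s hs.1).1, (k s hs.1).2]
    exact (e _).trans (((e _).symm.trans ((hC _ _ (r s hs.1)).par x trivial)).symm)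
  · rw [show (P.job i).tw (e v) = _ from tw v]
    exact Eqv71.tmR_refl univ q _
  · change Cnt93.TcR _ _ _ ((F.t i).tc l v) ((P.t i).tc l (e v))
    rw [tc l v]
    refine ⟨rfl, rfl, rfl, ?_⟩
    cases ((F.t i).tc l v).ξ
    exacts [.one, .aw (Eqv71.awR_refl _ _), .qj (Eqv71.coR_refl _ q _) (Eqv71.sR_refl _ q _)
      (Eqv71.swR_refl _ _) (Eqv71.swR_refl _ _) (Eqv71.lasR_refl _ _)]

/-! ### the prism -/

/-- the weights of the two ends -/
def ch (p : Bool) (u : ℝ) : ℝ := bif p then Real.smoothTransition u else 1 - Real.smoothTransition u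

theorem ch_self : ch p (b01 p) = 1 := by
  cases p <;> simp [ch, b01]

theorem ch_not : ch (!p) (b01 p) = 0 := by
  cases p <;> simp [ch, b01]

theorem contDiff_ch : ContDiff ℝ ∞ (ch p) := by
  cases p
  exacts [contDiff_const.sub Real.smoothTransition.contDiff, Real.smoothTransition.contDiff]

/-- the terms of the end `b` of `F`, seen from the end `p` of the prism -/
def tm (F : Fam S j N) (b p : Bool) (i : S.L) :
    Tr F.Wi S.X.M (lam ⊕ lam) S.ls (S.A ⊕ Unit) (j + 1 + N) N :=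
  ((F.t i).rep (gb b)).mul fun s => ch p (s (.inr ()))

/-- **the prism** -/
@[reducible] def pr (F₀ F₁ : Fam S j N) (b₀ b₁ : Bool) (E : S.Dat) (c : Cn S.L S.A) : Fam S j N where
  D := E
  Wi := F₀.Wi ⊕ F₁.Wi
  X := ∅
  n₀ := F₀.n₀
  uf := id
  Tf a u := ch false u * F₀.Tf a (b01 b₀) + ch true u * F₁.Tf a (b01 b₁)
  m := F₀.m
  𝒦 i := {σ' | ∃ σ τ o, c i σ ≠ 0 ∧ τ ⊆ σ ∧ σ' = cel τ o}
  t i := (tm F₀ b₀ false i).sum (tm F₁ b₁ true i)

theorem hard_sub (X : Finset S.A) : hard S ∅ ⊆ hard S X := fun _ h =>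
  h.imp id (.imp id fun k => (Finset.notMem_empty _ k).elim)

theorem pr_ok (hc : CutOK Lm) {d : ℕ} {c : Cn S.L S.A} (H : CN S d c) {F₀ F₁ : Fam S j N}
    {b₀ b₁ : Bool} (h₀ : F₀.OK T) (h₁ : F₁.OK T) (n₀ : F₀.n₀ = -d) (s₀ : F₀.Sub c (some b₀))
    (s₁ : F₁.Sub c (some b₁)) (E : S.Dat) : (pr F₀ F₁ b₀ b₁ E c).OK T := by
  set P := pr F₀ F₁ b₀ b₁ E c
  have hh : ∀ {i σ τ}, c i σ ≠ 0 → τ ⊆ σ → ↑τ ⊆ hard S ∅ := fun k e a ha =>
    ((H.cl.mem _ _ k).2.2 a (e ha)).imp id .inl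
  have hT : ∀ a ∈ S.fz, ∀ u, P.Tf a u ∈ Ico T 1 := fun a ha u =>
    (convex_Ico T 1) (h₀.Tf a ha _) (h₁.Tf a ha _) (sub_nonneg.2 (Real.smoothTransition.le_one u))
      (Real.smoothTransition.nonneg u) (sub_add_cancel _ _)
  have hK : ∀ {F : Fam S j N} {b}, F.OK T → F.Sub c (some b) → ∀ i, ∀ σ' ∈ P.𝒦 i,
      ∃ τ o, σ' = cel τ o ∧ ↑τ ⊆ hard S P.X ∧ cel τ (some b) ∈ F.𝒦 i :=
    fun hF hs i _ ⟨σ, τ, o, k1, k2, k3⟩ =>
      ⟨τ, o, k3, hh k1 k2, down (hF.ok i ⟨_, hs i σ k1⟩) (hs i σ k1) k2⟩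
  have ne : ∀ {F : Fam S j N} {b}, F.Sub c (some b) → ∀ i, (P.𝒦 i).Nonempty → (F.𝒦 i).Nonempty :=
    fun hs i ⟨_, σ, _, _, k, _⟩ => ⟨_, hs i σ k⟩
  have R : ∀ {F : Fam S j N} {b}, F.OK T → F.Sub c (some b) → ∀ i,
      Rep ((P.sk i).job (j + 1 + N) N) (F.job i) (P.sk i).sh (F.sk i).sh (gb b) := fun hF hs i =>
    rep hF (hard_sub _) (fun a ha u => (hT a ha u).2) (hK hF hs i)
  have T0 : ∀ {F : Fam S j N} {b}, F.OK T → F.Sub c (some b) → ∀ i, (P.𝒦 i).Nonempty →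
      ∀ a ∈ S.fz, 0 ≤ F.Tf a (b01 b) := fun {F b} hF hs i ⟨_, σ, _, _, k, _⟩ a ha => by
    have := ((hF.ok i ⟨_, hs i σ k⟩).par _ (hs i σ k) (gb b 0) (Job.cl_dom _ (gb_cl (o := none)
      ⟨fun a v e => ?_, fun _ => by simp⟩))).1 a
    · rw [show ((F.job i).Θ (gb b 0)).2 a = _ from thS_fz ha] at this
      exact this.1.trans_eq (congrArg (F.Tf a) (gb_inr ()))
    · rcases a with a | a
      · obtain rfl : v = false := by
          by_cases m : a ∈ σ <;> simp_all [cel]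
        rfl
      · cases e
  have sk0 : ∀ i, (P.𝒦 i).Nonempty →
      ({ P.sk i with ct := Empty.elim, nb := Empty.elim } : Sk _ Unit Empty).OK := fun i hi =>
    { dj := disjoint_left.2 fun a h1 h2 => h1.elim (H.ok.fz a h2).1
        fun k => k.elim (H.ok.fz a h2).2.1 (Finset.notMem_empty _)
      uf := contDiff_apply ℝ ℝ ()
      Tf := fun a => ((contDiff_ch.mul contDiff_const).add (contDiff_ch.mul contDiff_const)).comp
        (contDiff_apply ℝ ℝ ())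
      T := fun a ha u => ⟨add_nonneg (mul_nonneg (sub_nonneg.2 (Real.smoothTransition.le_one _))
        (T0 h₀ s₀ i hi a ha)) (mul_nonneg (Real.smoothTransition.nonneg _) (T0 h₁ s₁ i hi a ha)),
        (hT a ha _).2⟩
      mem := fun a ha => (h₀.ok i (ne s₀ i hi)).mem (.inl a) a
        ((Sk.hd_eq (S := F₀.sk i) (r := 0) (n := 0)).2 ⟨hard_sub _ ha, rfl⟩)
      down := by
        rintro _ ⟨σ, τ, o, k1, k2, rfl⟩ (a | a) (_ | _) e k
        · exact ⟨σ, _, o, k1, (Finset.erase_subset a τ).trans k2, fc_inl a⟩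
        · exact (k rfl a (hh k1 k2 (ce_none.1 e)) rfl).elim
        all_goals exact ⟨σ, τ, _, k1, k2, fc_inr _⟩
      soft := by
        rintro _ ⟨σ, τ, o, -, -, rfl⟩ a - e
        by_cases m : a ∈ τ <;> simp [cel, m] at e
      cell := by
        rintro _ ⟨σ, τ, o, k1, k2, rfl⟩
        exact (H.ok.cell i σ (H.cl.mem i σ k1).1).1.mono
          (union_subset_union_left _ fun a ha => k2 (ce_none.1 ha.2))
      nb := fun l => l.elim
      dn := fun l => l.elim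
      ct := fun _ _ _ _ _ _ l => l.elim
      xs := (Ink3.xg0 Empty (S.N i)).ok
      iso := (Ink3.xg0 Empty (S.N i)).iso
      nk := (Ink3.xg0 Empty (S.N i)).isNk _ _ }
  have sk : ∀ i, (P.𝒦 i).Nonempty → (P.sk i).OK := fun i hi =>
    { sk0 i hi with
      nb := fun l => H.ok.nb_ok l hc i
      dn := H.ok.nb_dj
      ct := fun σ' hσ s hs c e l hl =>
        H.ok.ct_ok l hc i _ _ c (((sk0 i hi).job 0 0).par σ' hσ s hs) e hl }
  have sm : ∀ p, ContDiff ℝ ∞ fun s : S.A ⊕ Unit → ℝ => ch p (s (.inr ())) := fun p =>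
    contDiff_ch.comp (contDiff_apply ℝ ℝ (Sum.inr () : S.A ⊕ Unit))
  have lc : ∀ p i s s', ((P.sk i).job (j + 1 + N) N).Ag (P.sk i).sh ∅ s s' →
      ch p (s (.inr ())) = ch p (s' (.inr ())) := fun p i s s' k =>
    congrArg _ (k _ (.inl fun _ _ => Sum.inr_ne_inl))
  refine ⟨hT, fun i hi => Job.put_ok ((sk i hi).job _ _)
      ((((R h₀ s₀ i).tok (h₀.ok i (ne s₀ i hi)).tok).mul (sm _)).sum
        (((R h₁ s₁ i).tok (h₁.ok i (ne s₁ i hi)).tok).mul (sm _))),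
    fun i hi => Job.put_loc ((sk i hi).loc _ _)
      ((((R h₀ s₀ i).tloc (h₀.loc i (ne s₀ i hi)).tloc).mul (lc _ i)).sum
        (((R h₁ s₁ i).tloc (h₁.loc i (ne s₁ i hi)).tloc).mul (lc _ i))),
    ?_, fun i σ' hσ s hs c' e => ?_, fun i σ' hσ s hs l e => ?_, fun i l σ' hσ hσ' s hs e => ?_⟩
  · rintro i _ ⟨σ, τ, o, k1, k2, rfl⟩
    have k := H.cl.mem i σ k1
    refine ⟨τ, o, rfl, hh k1 k2, σ, k.1, k2, H.ns i σ k1, ?_⟩
    rw [show P.n₀ = _ from n₀, k.2.1]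
    cases o <;> simp [sf]
  · have key : ∀ {F : Fam S j N} {b}, F.OK T → F.Sub c (some b) → (F.t i).Le (gb b s) (P.t i) s →
        (P.job i).RichS s ∧ ∀ π, S.M.sys.Piece c'.1 π →
          ((∀ l ∈ S.ls, π l ≠ some false) → (P.job i).RichT s π) ∧
          ∀ l, S.nb l ⊆ S.M.sys.U π → (P.job i).RichC s π l := fun hF hb L => by
      obtain ⟨τ, o, rfl, -, k⟩ := hK hF hb i σ' hσ
      have := hF.rich i _ k _ (gb_cl hs) c'
        (((R hF hb i).inf _ hσ s (Job.cl_dom _ hs)).symm.trans e)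
      exact ⟨L.richS this.1, fun π hπ => ⟨fun m => L.richT ((this.2 π hπ).1 m),
        fun l m => L.richC ((this.2 π hπ).2 l m)⟩⟩
    have L : ∀ {F : Fam S j N} {b} p, ch p (s (.inr ())) ≠ 0 → (F.t i).Le (gb b s) (tm F b p i) s :=
      fun p k => Tr.Le.mul (χ := fun s : S.A ⊕ Unit → ℝ => ch p (s (.inr ()))) Tr.Le.refl.rep k
    by_cases k : ch true (s (.inr ())) = 0
    · exact key h₀ s₀ (L false (sub_ne_zero.2 (k ▸ one_ne_zero :
        1 ≠ ch true (s (.inr ()))))).inl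
    · exact key h₁ s₁ (L true k).inr
  · have key : ∀ {F : Fam S j N} {b} p, F.OK T → F.Sub c (some b) → ∀ w,
        ((tm F b p i).co w s ≠ 0 → TmIn S.X.I ((S.M.sys.w l).sd true) ((tm F b p i).tw w)) ∧
        ∀ l' ≠ l, (tm F b p i).cc l' w s ≠ 0 →
          XiIn S.X.I ((S.M.sys.w l).sd true) ((tm F b p i).tc l' w).ξ := fun p hF hb w => by
      obtain ⟨τ, o, rfl, -, k⟩ := hK hF hb i σ' hσ
      have := hF.van i _ k _ (gb_cl hs) l ((gb_inl _).trans e) w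
      exact ⟨fun m => this.1 (right_ne_zero_of_mul m), fun l' m m' =>
        this.2 l' m (right_ne_zero_of_mul m')⟩
    exact Sum.rec (key _ h₀ s₀) (key _ h₁ s₁)
  · have key : ∀ {F : Fam S j N} {b} p, F.OK T → F.Sub c (some b) → ∀ w,
        ((tm F b p (S.fl l i)).co w s = (tm F b p i).co w s ∧
          ((tm F b p i).co w s ≠ 0 → (tm F b p (S.fl l i)).tw w = (tm F b p i).tw w)) ∧
        ∀ l' ≠ l, (tm F b p (S.fl l i)).cc l' w s = (tm F b p i).cc l' w s ∧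
          ((tm F b p i).cc l' w s ≠ 0 → (tm F b p (S.fl l i)).tc l' w = (tm F b p i).tc l' w) :=
        fun p hF hb w => by
      obtain ⟨τ', o', e', -, k'⟩ := hK hF hb _ σ' hσ'
      obtain ⟨τ, o, rfl, -, k⟩ := hK hF hb i σ' hσ
      have := hF.twin i l _ k (cel_inj e' ▸ k') _ (gb_cl hs) ((gb_inl _).trans e) w
      exact ⟨⟨congrArg (_ * ·) this.1.1, fun m => this.1.2 (right_ne_zero_of_mul m)⟩, fun l' m =>
        ⟨congrArg (_ * ·) (this.2 l' m).1, fun m' => (this.2 l' m).2 (right_ne_zero_of_mul m')⟩⟩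
    exact Sum.rec (key _ h₀ s₀) (key _ h₁ s₁)

/-- **JOIN** -/
theorem join (hc : CutOK Lm) : JoinStmt Lm := by
  intro S j N d c T F₀ F₁ b₀ b₁ H _ h₀ h₁ n₀ n₁ s₀ s₁
  obtain ⟨E, -, e₀, e₁⟩ := Scene.dat_mix H.ok F₀.D F₁.D (F₀.uf (b01 b₀)) (F₁.uf (b01 b₁))
    F₀.D.W.toCaps
  refine ⟨pr F₀ F₁ b₀ b₁ E c, .inl, .inr, fun _ _ => Sum.inl_ne_inr, pr_ok hc H h₀ h₁ n₀ s₀ s₁ E, rfl,
    n₀, fun i σ k => ⟨σ, σ, _, k, subset_rfl, rfl⟩, fun i σ k => ?_⟩
  have hh : ↑σ ⊆ hard S ∅ := fun a ha => ((H.cl.mem _ _ k).2.2 a ha).imp id .inl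
  have c0 : ∀ p (s : S.A ⊕ Unit → ℝ) x, ch (!p) (gb p s (.inr ())) * x = 0 := fun p s x => by
    rw [gb_inr, ch_not, zero_mul]
  have c1 : ∀ p (s : S.A ⊕ Unit → ℝ) x, ch p (gb p s (.inr ())) * x = x := fun p s x => by
    rw [gb_inr, ch_self, one_mul]
  refine ⟨cor (P := pr F₀ F₁ b₀ b₁ E c) (p := false) (h₀.ok i ⟨_, s₀ i σ k⟩) (s₀ i σ k)
      (hard_sub _) hh rfl (fun a _ => by simp [ch, b01])
      (e₀ 0 le_rfl).1 ((e₀ 0 le_rfl).2 i) (fun _ => rfl) (fun _ _ => rfl)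
      (fun s v => (c1 false s _).trans (congrArg ((F₀.t i).co v) gb_gb))
      (fun s l v => (c1 false s _).trans (congrArg ((F₀.t i).cc l v) gb_gb)) ?_,
    cor (P := pr F₀ F₁ b₀ b₁ E c) (p := true) (h₁.ok i ⟨_, s₁ i σ k⟩) (s₁ i σ k)
      (hard_sub _) hh (n₀.trans n₁.symm)
      (fun a _ => by simp [ch, b01]) (e₁ 1 le_rfl).1 ((e₁ 1 le_rfl).2 i) (fun _ => rfl)
      (fun _ _ => rfl) (fun s v => (c1 true s _).trans (congrArg ((F₁.t i).co v) gb_gb))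
      (fun s l v => (c1 true s _).trans (congrArg ((F₁.t i).cc l v) gb_gb)) ?_⟩
  all_goals rintro s (v | v) m
  exacts [(m ⟨v, rfl⟩).elim, ⟨c0 false s _, fun _ => c0 false s _⟩,
    ⟨c0 true s _, fun _ => c0 true s _⟩, (m ⟨v, rfl⟩).elim]

end Crest.Agent.X212.Ins30
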