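import Crest.Agent.X212.Eqv71.Job

/-!
# X212 / Ins30 (helper30): squares of transports; invariance of the moduli spaces with cuts
-/

set_option autoImplicit false
set_option linter.unusedSectionVars false
noncomputable section
open scoped Manifold ContDiff Topology InnerProductSpace
open MeasureTheory Set Function Filter

namespace Crest.Agent.X212.Ins30
open An Eqv71 Cnt93 Nd18

theorem map₂ {α β γ δ : Type} {R : α → β → Prop} {S : γ → δ → Prop} {f : α → γ} {g : β → δ}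
    (h : ∀ a b, R a b → S (f a) (g b)) {l : List α} {l' : List β} (k : List.Forall₂ R l l') :
    List.Forall₂ S (l.map f) (l'.map g) :=
  List.forall₂_map_left_iff.2 (List.forall₂_map_right_iff.2 (k.imp h))

theorem sum_rs {W₁ W₂ V : Type*} [AddCommMonoid V] (e : W₁ ↪ W₂) (q : W₂ →₀ ℝ) {g : W₂ → ℝ → V}
    (h0 : ∀ w ∉ range e, ∀ a, g w a = 0) :
    q.sum g = (q.comapDomain e e.injective.injOn).sum fun w => g (e w) := by
  classical
  rw [Finsupp.sum, ← Finset.sum_preimage e q.support e.injective.injOn _ fun w _ hw => h0 w hw _]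
  rfl

section sq
variable {M M' Z Z' lam lam' mu mu' : Type} [Fintype lam] [Fintype lam'] [Fintype mu] [Fintype mu']
  {t : Tp M Z lam mu} {t' : Tp M' Z' lam' mu'} {O : Set M} {ψ : M → M'}
  {u : M → CL (Eu lam) (Eu lam')} {U : Set Z} {Ψ : Z → Z'} {w : Z → CL (Eu mu) (Eu mu')} {r n : ℕ}

variable (t t' O ψ u U Ψ w) in
/-- the transports carry corresponding data to corresponding data -/
structure Sq : Prop where
  f : ∀ {g g'}, FR O ψ g g' → FR U Ψ (t.f g) (t'.f g')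
  s : ∀ {g g'}, SR O ψ u g g' → SR U Ψ w (t.s g) (t'.s g')

namespace Sq
variable (h : Sq t t' O ψ u U Ψ w)
include h

theorem sw {a a'} (k : SWR O ψ a a') : SWR U Ψ (a.map t.lt) (a'.map t'.lt) :=
  map₂ (fun _ _ e => by
    cases e with
    | mul e => exact .mul (h.f e)
    | cl e => exact .cl (h.f e)
    | im => exact .im
    | G => exact .G) k

theorem ll {a a'} (k : List.Forall₂ (LaR O ψ) a a') :
    List.Forall₂ (LaR U Ψ) (a.map t.la) (a'.map t'.la) :=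
  map₂ (fun _ _ e => by
    cases e with
    | mul e => exact .mul (h.f e)
    | G => exact .G) k

theorem aw {a a'} (k : AWR O ψ a a') : AWR U Ψ (t.aw a) (t'.aw a') := by
  obtain ⟨s, l⟩ := a
  obtain ⟨s', l'⟩ := a'
  refine ⟨?_, h.ll k.l⟩
  have e : SdR O ψ s s' := k.s
  cases e with
  | q a b => exact .q (h.sw a) (h.sw b)
  | cv a b c => exact .cv (h.f a) (h.f b) (h.f c)

theorem sg {a a'} (k : SgR O ψ u a a') : SgR U Ψ w (t.sg a) (t'.sg a') :=
  ⟨h.s k.s, h.sw k.u, h.sw k.v⟩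

theorem co {a : Co M lam r} {a'} (k : CoR O ψ u a a') : CoR U Ψ w (t.co a) (t'.co a') := by
  cases k with
  | z i => exact .z i
  | s a b => exact .s (h.sg a) (map₂ (fun _ _ e => h.sg e) b)

theorem tm {a : Tm M lam r n} {a'} (k : TmR O ψ u a a') : TmR U Ψ w (t.tm a) (t'.tm a') := by
  cases k with
  | lin a => exact .lin (h.sw a)
  | anti a b c => exact .anti (h.co a) (h.s b) (h.sw c)
  | ad a b c => exact .ad (h.f a) (h.f b) (h.aw c)
  | adj a b c d e f g =>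
    exact .adj (h.co a) (h.s b) (h.f c) (h.f d) (h.sw e) (h.sw f) (h.ll g)
  | adn χ a b c d => exact .adn χ (h.f a) (h.f b) (h.f c) (map₂ (fun _ _ e => h.aw e) d)
  | cut i z a => exact .cut i z (h.sg a)
  | cz i z k => exact .cz i z k

theorem tc {a : Tc M lam r} {a'} (k : TcR O ψ u a a') : TcR U Ψ w (t.tc a) (t'.tc a') := by
  obtain ⟨_, _, _, ξ⟩ := a
  obtain ⟨_, _, _, ξ'⟩ := a'
  refine ⟨k.m, k.n, k.w, ?_⟩
  have e : XiR O ψ u ξ ξ' := k.ξ
  cases e with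
  | one => exact .one
  | aw a => exact .aw (h.aw a)
  | qj a b c d e => exact .qj (h.co a) (h.s b) (h.sw c) (h.sw d) (h.ll e)

theorem cut [TopologicalSpace M] [TopologicalSpace Z] {k : Cut M lam} {k' : Cut M' lam'}
    (R : k.Rel k' O ψ u) (hp : ∀ x ∈ O, t.p x ∈ U ∧ t'.p (ψ x) = Ψ (t.p x)) :
    (t.cut k).Rel (t'.cut k') U Ψ w :=
  ⟨by rintro _ ⟨y, rfl⟩; exact (hp _ (R.sub ⟨y, rfl⟩)).1,
    fun θ s => (congrArg t'.p (R.γ θ s)).trans (hp _ (R.sub ⟨(θ, s), rfl⟩)).2,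
    map₂ (fun _ _ e => ⟨h.f e.1, h.f e.2.1, h.f e.2.2⟩) R.w,
    map₂ (fun _ _ e => ⟨h.s e.1, h.f e.2.1, h.f e.2.2⟩) R.e⟩

end Sq

theorem sq_of (φ : PartialEquiv M Z) (φ' : PartialEquiv M' Z') {v : M → CL (Eu lam) (Eu mu)}
    {v' : M' → CL (Eu lam') (Eu mu')}
    (hU : ∀ z ∈ U, ∃ x ∈ O, x ∈ φ.source ∧ φ x = z ∧ ψ x ∈ φ'.source ∧ Ψ z = φ' (ψ x) ∧
      ∀ a a', trn (u x) a' = trn (u x) (u x a) →
        trn (w z) (v' (ψ x) a') = trn (w z) (w z (v x a))) :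
    Sq (Tp.of φ v) (Tp.of φ' v') O ψ u U Ψ w := by
  refine ⟨fun e z hz => ?_, fun e z hz => ?_⟩ <;> obtain ⟨x, a, b, rfl, c, d, f⟩ := hU z hz <;>
    simp only [Tp.of, comp_apply, d, indicator_of_mem (φ.map_source b),
      indicator_of_mem (φ'.map_source c), φ.left_inv b, φ'.left_inv c]
  exacts [e a, f _ _ (e x a)]

end sq

variable {E : Type} [NormedAddCommGroup E] [NormedSpace ℝ E] [FiniteDimensional ℝ E]
  [MeasurableSpace E] [BorelSpace E]
  {HM : Type} [TopologicalSpace HM] {I : ModelWithCorners ℝ E HM} [I.Boundaryless]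
  {M : Type} [TopologicalSpace M] [ChartedSpace HM M] [IsManifold I ∞ M] [T2Space M]
  [MeasurableSpace M] [BorelSpace M] [SecondCountableTopology M]
  {ι : Type} [Fintype ι] {lam : Type} [Fintype lam]
  {E' : Type} [NormedAddCommGroup E'] [NormedSpace ℝ E'] [FiniteDimensional ℝ E']
  [MeasurableSpace E'] [BorelSpace E']
  {HM' : Type} [TopologicalSpace HM'] {I' : ModelWithCorners ℝ E' HM'} [I'.Boundaryless]
  {M' : Type} [TopologicalSpace M'] [ChartedSpace HM' M'] [IsManifold I' ∞ M'] [T2Space M']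
  [MeasurableSpace M'] [BorelSpace M'] [SecondCountableTopology M']
  {ι' : Type} [Fintype ι'] {lam' : Type} [Fintype lam']
  {B : Base M ι lam} {B' : Base M' ι' lam'} {r n : ℕ}

section one
variable {G : Geo I M ι lam} {G' : Geo I' M' ι' lam'} {φ : M → M'} {ψ : M' → M}
  {U : M → ι' → ι → ℝ} {v : M → CL (Eu lam) (Eu lam')}

theorem rel_symm (g : KG B G B' G' univ univ φ ψ U v) {k : Cut M lam} {k' : Cut M' lam'}
    (R : k.Rel k' univ φ v) : k'.Rel k univ ψ fun y => trn (v (ψ y)) := by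
  have f : ∀ {a : M → ℝ} {a' : M' → ℝ}, EqOn (a' ∘ φ) a univ → EqOn (a ∘ ψ) a' univ :=
    fun e y _ => (e trivial).symm.trans (congrArg _ (g.inv.rinv y trivial))
  refine ⟨subset_univ _, fun θ s => by rw [R.γ, g.inv.linv _ trivial],
    (R.w.flip).imp fun _ _ e => ⟨f e.1, f e.2.1, f e.2.2⟩,
    (R.e.flip).imp fun _ _ e => ⟨fun y _ => ?_, f e.2.1, f e.2.2⟩⟩
  have k := e.1 (ψ y) trivial
  have b := g.be (ψ y) trivial
  rw [g.inv.rinv y trivial] at k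
  rw [k, trn_trn, ← ContinuousLinearMap.comp_apply (trn _), b.vv, ← ContinuousLinearMap.comp_apply,
    b.vl g.hB]

theorem eqv_surj (g : KG B G B' G' univ univ φ ψ U v) {k : Cut M lam} {k' : Cut M' lam'}
    (R : k.Rel k' univ φ v) {m : Md M ι lam} {m' : Md M' ι' lam'} {W : m.Cn} {W' : m'.Cn}
    {u : M → CL m.V m'.V} (L : LM B G B' G' univ φ U v W W' u) (a' : k'.H B' m') :
    ∃ a, k.Eqv k' B B' u a a' := by
  have L' := L.symm g.inv
  have R' := rel_symm g R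
  have := eqv_symm L' R' (g.inv.rinv k'.x0 trivial) ((eqv_iff L' R' (a := a')).2 ⟨1, rfl⟩)
  have e : (fun x => trn (trn (u (ψ (φ x))))) = u :=
    funext fun x => by rw [trn_trn, g.inv.linv x trivial]
  exact ⟨_, e ▸ this⟩

variable {h h' : Type} {k : h → Cut M lam} {k' : h' → Cut M' lam'} {η : h → h'}

/-- isomorphism classes correspond under a global equivalence -/
theorem isoC_of (g : KG B G B' G' univ univ φ ψ U v) (R : ∀ i, (k i).Rel (k' (η i)) univ φ v)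
    {c d : CfgC k B r} {c' d' : CfgC k' B' r} (hc : Ad0 c.1 B G) (hc' : Ad0 c'.1 B' G')
    (hd : Ad0 d.1 B G) (hd' : Ad0 d'.1 B' G') {u : M → CL c.1.m.V c'.1.m.V}
    {w : M → CL d.1.m.V d'.1.m.V} {ζ ξ : Circle}
    (e : CEq G.F c.1 c'.1 univ φ U v u ζ) (f : CEq G.F d.1 d'.1 univ φ U v w ξ)
    (e' : ∀ i, (k i).Eqv (k' (η i)) B B' u (c.2 i) (c'.2 (η i)))
    (f' : ∀ i, (k i).Eqv (k' (η i)) B B' w (d.2 i) (d'.2 (η i)))
    (H : IsoC k' B' G'.F c' d') : IsoC k B G.F c d := by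
  obtain ⟨a, θ, H, H'⟩ := H
  have hm : ∀ {X Y : Type} (f : X → Y), MapsTo f univ univ := fun _ _ _ => trivial
  have l' := lg_refl g.hB' g.hG' isOpen_univ
  have s := ceq_symm g.toLG g.inv hd hd' f
  have K := ceq_trans (g.toLG.trans l' (hm _)) (g.toLG.symm g.inv) (hm _) hc hd' hd
    (ceq_trans g.toLG l' (hm _) hc hc' hd' e H) s
  have h1 : ψ ∘ id ∘ φ = id := funext fun x => g.inv.linv x trivial
  have h2 : (fun x d a => ∑ b, U (ψ ((id ∘ φ) x)) b d * ∑ b', B'.P b b' (φ x) * U x b' a)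
      = fun x b a => B.P b a x := by
    funext x d a
    simp only [comp_apply, id, g.inv.linv x trivial, (g.be x trivial).PU g.hB',
      (g.be x trivial).UU]
  have h3 : (fun x => trn (v (ψ ((id ∘ φ) x))) ∘L B'.l (φ x) ∘L v x) = B.l := by
    funext x
    simp only [comp_apply, id, g.inv.linv x trivial, (g.be x trivial).lv g.hB,
      (g.be x trivial).vv]
  rw [h1, h2, h3] at K
  refine ⟨_, _, K, fun i => ?_⟩
  have x0 : (k' (η i)).x0 = φ (k i).x0 := (R i).γ 0 0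
  have a1 := eqv_trans x0 (H.m.J (k' (η i)).x0 trivial) hd'.ok.Jsq (e' i) (H' (η i))
  have a2 := eqv_symm (g.toLG.of_ceq hd hd' f) (R i) (g.inv.linv (k i).x0 trivial) (f' i)
  have a3 := eqv_trans (φ := id ∘ φ) x0 (s.m.J (k' (η i)).x0 trivial) hd.ok.Jsq a1 a2
  exact a3

theorem pull_ex {φ : OpenPartialHomeomorph M M'} (g : GEq B G B' G' φ U v) (hB : B.OK I)
    (hG : G.OK B) (hB' : B'.OK I') (hG' : G'.OK B') (h1 : φ.source = univ) {c' : Cfg M' ι' lam' r}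
    (h : c'.Adm B' G') : ∃ (c : Cfg M ι lam r) (u : M → CL c.m.V c'.m.V) (ζ : Circle),
      c.Adm B G ∧ CEq G.F c c' univ φ U v u ζ :=
  let ⟨a, e⟩ := pullC_spec g hB hG hB' hG' h1 (ad0 h)
  ⟨_, _, _, ⟨a.ok, a.conn, a.sm, a.pos, h.z⟩, e⟩

theorem push_ex {φ : OpenPartialHomeomorph M M'} (g : GEq B G B' G' φ U v) (hB : B.OK I)
    (hG : G.OK B) (hB' : B'.OK I') (hG' : G'.OK B') (h1 : φ.source = univ) (h2 : φ.target = univ)
    {c : Cfg M ι lam r} (h : c.Adm B G) : ∃ (c' : Cfg M' ι' lam' r) (u : M → CL c.m.V c'.m.V)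
      (ζ : Circle), c'.Adm B' G' ∧ CEq G.F c c' univ φ U v u ζ := by
  have K := kg_univ g hB hG hB' hG' h1 h2
  obtain ⟨c', u, ζ, a, e⟩ := pull_ex (geq_symm g hB hG hB' hG') hB' hG' hB hG h2 h
  exact ⟨c', _, _, a, ceq_symm_symm K.inv (ceq_symm K.symm.toLG K.symm.inv (ad0 a) (ad0 h) e)⟩

theorem int_kd [CompactSpace M] (hB : B.OK I) (hG : G.OK B) {c : Cfg M ι lam r} (h : Ad0 c B G) :
    Integrable (c.m.kd B G.F c.W) G.F.μ := by
  have f := (Mp86.sm_Fg hB hG h.ok h.conn).continuous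
  refine Mp86.integ_of_cont (continuous_const.mul ?_)
  simp only [PiLp.inner_apply, idx_apply, ContinuousLinearMap.id_apply]
  have f' : ∀ s, Continuous fun x => c.m.Fg G.F c.W x s := fun s =>
    (PiLp.proj 2 (fun _ : ι × ι => c.m.A) s : CL _ _).continuous.comp f
  exact continuous_finsetSum _ fun s _ => (f' s).inner (continuous_finsetSum _ fun t _ =>
    ((hB.so _ _ _ _).continuous.div_const 2).smul (f' t))

/-- the perturbation vanishes on admissible configurations -/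
def VanA (B : Base M ι lam) (G : Geo I M ι lam) (τ : Pt M ι lam r n) : Prop :=
  ∀ c, Ad0 c B G → (∀ x, τ.D c x = 0 ∧ τ.C c x = 0) ∧ ∀ i, τ.S c i = 0

theorem VanA.rel {τ : Pt M ι lam r n} {τ' : Pt M' ι' lam' r n} (h : VanA B G τ)
    (h' : VanA B' G' τ') : PRel0 B G B' G' univ univ φ U v τ τ' :=
  ⟨fun k x _ => by
      rw [((h _ k.adm).1 x).1, ((h' _ k.adm').1 _).1, map_zero, ← csL_apply, map_zero],
    fun k x _ => by rw [((h _ k.adm).1 x).2, ((h' _ k.adm').1 _).2, map_zero],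
    fun k i => by rw [(h _ k.adm).2, (h' _ k.adm').2, mul_zero]⟩

theorem vanA_dsum {K : Type} [Fintype K] {p : K → Prop} {τ : ∀ i, p i → Pt M ι lam r n}
    (h : ∀ i k, VanA B G (τ i k)) : VanA B G (Pt.dsum p τ) := fun c hc => by
  refine ⟨fun x => ⟨?_, ?_⟩, fun j => ?_⟩ <;> refine Finset.sum_eq_zero fun i _ => ?_ <;>
    split_ifs with k
  exacts [((h i k c hc).1 x).1, rfl, ((h i k c hc).1 x).2, rfl, (h i k c hc).2 j, rfl]

end one

/-- **the moduli spaces with cuts of globally equivalent families** -/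
theorem card_modC_eq {T T' h h' : Type} {Q : Set T} {Q' : Set T'} {σ : T → T'}
    (hσ : BijOn σ Q Q') (η : h ≃ h') {k : h → Cut M lam} {k' : h' → Cut M' lam'}
    {G : T → Geo I M ι lam} {G' : T' → Geo I' M' ι' lam'} {τ : T → Pt M ι lam r n}
    {τ' : T' → Pt M' ι' lam' r n} {ρ : T → ∀ i, Pc r B (k i)} {ρ' : T' → ∀ i, Pc r B' (k' i)}
    {φ : OpenPartialHomeomorph M M'} {U : T → M → ι' → ι → ℝ}
    {v : M → CL (Eu lam) (Eu lam')} (hB : B.OK I) (hB' : B'.OK I') (hG : ∀ t ∈ Q, (G t).OK B)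
    (hG' : ∀ t ∈ Q', (G' t).OK B') (g : ∀ t ∈ Q, GEq B (G t) B' (G' (σ t)) φ (U t) v)
    (h1 : φ.source = univ) (h2 : φ.target = univ)
    (p : ∀ t ∈ Q, PRel B (G t) B' (G' (σ t)) univ univ φ (U t) v (τ t) (τ' (σ t)))
    (q : ∀ t ∈ Q, PNat B (G t) univ (τ t)) (ok : ∀ t ∈ Q, ∀ i, (k i).OK B (G t).F)
    (ok' : ∀ t ∈ Q', ∀ i, (k' i).OK B' (G' t).F)
    (R : ∀ t ∈ Q, ∀ i, (k i).Rel (k' (η i)) univ φ v)
    (pc : ∀ t ∈ Q, ∀ i, PcRel0 B (G t) B' (G' (σ t)) univ univ φ (U t) v (ρ t i) (ρ' (σ t) (η i)))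
    (l : ℝ) : Nat.card (ModC k B Q G τ ρ l) = Nat.card (ModC k' B' Q' G' τ' ρ' l) := by
  have kg := fun t ht => kg_univ (g t ht) hB (hG t ht) hB' (hG' _ (hσ.mapsTo ht)) h1 h2
  refine card_quot_eq (fun x y => y.1.1 = σ x.1.1 ∧ ∃ u ζ, CEq (G x.1.1).F x.1.2.1 y.1.2.1 univ
    φ (U x.1.1) v u ζ ∧ ∀ i, (k i).Eqv (k' (η i)) B B' u (x.1.2.2 i) (y.1.2.2 (η i))) ?_ ?_
    (fun x => ⟨rfl, isoC_refl hB (hG _ x.2.1) (ad0 x.2.2.1.toAdm)⟩)
    (fun x => ⟨rfl, isoC_refl hB' (hG' _ x.2.1) (ad0 x.2.2.1.toAdm)⟩) ?_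
  · rintro ⟨⟨t, c, a⟩, ht, hc, hk, ha⟩
    have ht' := hσ.mapsTo ht
    have K := kg t ht
    obtain ⟨c', u, ζ, a1, e⟩ := push_ex (g t ht) hB (hG t ht) hB' (hG' _ ht') h1 h2 hc.toAdm
    have L := K.toLG.of_ceq (ad0 hc.toAdm) (ad0 a1) e
    have : ∀ j, ∃ b, ∀ i, η i = j → (k i).Eqv (k' j) B B' u (a i) b := η.forall_congr_right.1
      fun i => ⟨Rh (k i) _ B B' u 1 (a i), fun i' hi => by
        obtain rfl := η.injective hi
        exact (eqv_iff L (R t ht i')).2 ⟨1, rfl⟩⟩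
    choose b hb using this
    have s : ∀ j, (k' j).Sol B' (G' (σ t)).F (ρ' (σ t) j) c' (b j) := η.forall_congr_right.1
      fun i => (PcRel0.sol (pc t ht i) K.toLG (ok t ht i) (ok' _ ht' (η i)) (R t ht i)
        (cr0_univ (ad0 hc.toAdm) (ad0 a1) e) (hb (η i) i rfl)).2 (ha i)
    exact ⟨⟨(σ t, ⟨c', b⟩), ht', (p t ht).sol K.toLG (fun y => ⟨_, K.inv.rinv y trivial⟩) hc a1 e,
      (kap_eq K L).trans hk, s⟩, rfl, u, ζ, e, fun i => hb (η i) i rfl⟩
  · rintro ⟨⟨t', c', a⟩, ht', hc, hk, ha⟩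
    obtain ⟨t, ht, rfl⟩ := hσ.surjOn ht'
    have K := kg t ht
    obtain ⟨c, u, ζ, a1, e⟩ := pull_ex (g t ht) hB (hG t ht) hB' (hG' _ ht') h1 hc.toAdm
    have L := K.toLG.of_ceq (ad0 a1) (ad0 hc.toAdm) e
    choose b hb using fun i => eqv_surj K (R t ht i) L (a (η i))
    exact ⟨⟨(t, ⟨c, b⟩), ht, ((p t ht).symm K.toLG K.inv (q t ht)).sol K.symm.toLG
      (fun x => ⟨_, K.inv.linv x trivial⟩) hc a1 (ceq_symm K.toLG K.inv (ad0 a1) (ad0 hc.toAdm) e),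
      (kap_eq K L).symm.trans hk, fun i => (PcRel0.sol (pc t ht i) K.toLG (ok t ht i) (ok' _ ht' _)
        (R t ht i) (cr0_univ (ad0 a1) (ad0 hc.toAdm) e) (hb i)).1 (ha _)⟩, rfl, u, ζ, e, hb⟩
  · rintro ⟨⟨t, c⟩, ht, hc, _⟩ ⟨⟨s, d⟩, hs, hd, _⟩ ⟨⟨t', c'⟩, ht', hc', _⟩
      ⟨⟨s', d'⟩, hs', hd', _⟩ ⟨rfl, u, ζ, e, e'⟩ ⟨rfl, w, ξ, f, f'⟩
    have c0 := ad0 hc.toAdm
    have c1 := ad0 hc'.toAdm
    refine ⟨?_, ?_⟩
    · rintro ⟨rfl, H⟩
      have d0 := ad0 hd.toAdm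
      have d1 := ad0 hd'.toAdm
      have K := kg t ht
      have S : ∀ {P : h → h' → Prop}, (∀ i, P i (η i)) → ∀ j, P (η.symm j) j :=
        fun {P} k j => by simpa only [η.apply_symm_apply] using k (η.symm j)
      exact ⟨rfl, isoC_of (η := η.symm) K.symm
        (S (P := fun i j => (k' j).Rel (k i) _ _ _) fun i => rel_symm K (R t ht i)) c1 c0 d1 d0
        (ceq_symm K.toLG K.inv c0 c1 e) (ceq_symm K.toLG K.inv d0 d1 f)
        (S (P := fun i j => (k' j).Eqv (k i) B' B _ (c'.2 j) (c.2 i)) fun i =>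
          eqv_symm (K.toLG.of_ceq c0 c1 e) (R t ht i) (K.inv.linv _ trivial) (e' i))
        (S (P := fun i j => (k' j).Eqv (k i) B' B _ (d'.2 j) (d.2 i)) fun i =>
          eqv_symm (K.toLG.of_ceq d0 d1 f) (R t ht i) (K.inv.linv _ trivial) (f' i)) H⟩
    · rintro ⟨h0, H⟩
      obtain rfl : t = s := hσ.injOn ht hs h0
      exact ⟨rfl, isoC_of (kg t ht) (R t ht) c0 c1 (ad0 hd.toAdm) (ad0 hd'.toAdm) e f e' f' H⟩

end Crest.Agent.X212.Ins30
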